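import Vale.Agent.P038.Defs
import Mathlib

/-!
# Arc-minimal counterexamples: every set has a decreasing boundary
-/

namespace Vale.Agent.P038.H915

open Finset

section

variable {V : Type*} [Fintype V]

/-- `y` is `x` or an out-neighbour of `x`. -/
def Adj (D : OGraph V) (x y : V) : Prop := x = y ∨ D.arc x y

open Classical in
/-- The closed out-neighbourhood of a set. -/
noncomputable def cl (D : OGraph V) (S : Finset V) : Finset V :=
  univ.filter fun z => ∃ y ∈ S, Adj D y z

theorem mem_cl {D : OGraph V} {S : Finset V} {z : V} : z ∈ cl D S ↔ ∃ y ∈ S, Adj D y z := by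
  classical
  simp [cl]

theorem subset_cl (D : OGraph V) (S : Finset V) : S ⊆ cl D S :=
  fun z hz => mem_cl.2 ⟨z, hz, Or.inl rfl⟩

theorem cl_mono {D : OGraph V} {S T : Finset V} (h : S ⊆ T) : cl D S ⊆ cl D T := by
  intro z hz
  obtain ⟨y, hy, hyz⟩ := mem_cl.1 hz
  exact mem_cl.2 ⟨y, h hy, hyz⟩

/-- The closed neighbourhood of the out-neighbourhood. -/
theorem card_cl_N1 (D : OGraph V) (v : V) :
    (cl D (N1 D v)).card = (N1 D v).card + (N2 D v).card := by
  classical
  have hd : Disjoint (N1 D v) (N2 D v) := by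
    rw [Finset.disjoint_left]
    intro x hx hx'
    exact (mem_N2.1 hx').2.1 (mem_N1.1 hx)
  rw [← Finset.card_union_of_disjoint hd]
  congr 1
  ext z
  rw [mem_union, mem_cl, mem_N1, mem_N2]
  constructor
  · rintro ⟨y, hy, rfl | hyz⟩
    · exact Or.inl (mem_N1.1 hy)
    · by_cases h : D.arc v z
      · exact Or.inl h
      · refine Or.inr ⟨?_, h, y, mem_N1.1 hy, hyz⟩
        rintro rfl
        exact D.asymm _ _ (mem_N1.1 hy) hyz
  · rintro (h | ⟨_, _, y, h1, h2⟩)
    · exact ⟨z, mem_N1.2 h, Or.inl rfl⟩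
    · exact ⟨y, mem_N1.2 h1, Or.inr h2⟩

/-- A counterexample. -/
def CE (D : OGraph V) : Prop := ∀ v, (N2 D v).card < (N1 D v).card

open Classical in
/-- The number of arcs. -/
noncomputable def arcs (D : OGraph V) : ℕ := (univ.filter fun p : V × V => D.arc p.1 p.2).card

/-- The graph without the arcs from `X` which leave `X ∪ T`. -/
def del (D : OGraph V) (X T : Finset V) : OGraph V where
  arc u z := D.arc u z ∧ ¬ (u ∈ X ∧ z ∉ X ∧ z ∉ T)
  loopless v h := D.loopless v h.1
  asymm u v h h' := D.asymm u v h.1 h'.1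

theorem ce_del {D : OGraph V} (h : CE D) {X T : Finset V}
    (hT : ∀ S : Finset V, Disjoint S X → Disjoint S T → S ⊆ cl D X →
      ∃ R : Finset V, (∀ z, z ∈ R ↔ z ∈ cl D S ∧ z ∉ X ∧ z ∉ cl D T) ∧ 2 * S.card ≤ R.card) :
    CE (del D X T) := by
  classical
  intro v
  have hv := h v
  have e1 := card_cl_N1 D v
  have e2 := card_cl_N1 (del D X T) v
  by_cases hvX : v ∈ X
  · set S := (N1 D v).filter fun z => z ∉ X ∧ z ∉ T with hS
    have hN : N1 (del D X T) v = (N1 D v) \ S := by
      ext z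
      simp only [hS, mem_N1, mem_sdiff, mem_filter, del]
      constructor
      · rintro ⟨h1, h2⟩
        exact ⟨h1, fun h3 => h2 ⟨hvX, h3.2.1, h3.2.2⟩⟩
      · rintro ⟨h1, h2⟩
        exact ⟨h1, fun h3 => h2 ⟨h1, h3.2.1, h3.2.2⟩⟩
    have hSN : S ⊆ N1 D v := Finset.filter_subset _ _
    obtain ⟨R, hR, hRc⟩ := hT S
      (by
        rw [Finset.disjoint_left]
        intro z hz
        exact (mem_filter.1 hz).2.1)
      (by
        rw [Finset.disjoint_left]
        intro z hz
        exact (mem_filter.1 hz).2.2)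
      (by
        intro z hz
        exact mem_cl.2 ⟨v, hvX, Or.inr (mem_N1.1 (hSN hz))⟩)
    have c1 : (N1 (del D X T) v).card + S.card = (N1 D v).card := by
      rw [hN]; exact Finset.card_sdiff_add_card_eq_card hSN
    have hsub : cl (del D X T) (N1 (del D X T) v) ∪ R ⊆ cl D (N1 D v) := by
      intro z hz
      rcases mem_union.1 hz with h1 | h1
      · obtain ⟨y, hy, hyz⟩ := mem_cl.1 h1
        rw [hN] at hy
        refine mem_cl.2 ⟨y, (mem_sdiff.1 hy).1, ?_⟩
        rcases hyz with h2 | h2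
        · exact Or.inl h2
        · exact Or.inr h2.1
      · exact cl_mono hSN ((hR z).1 h1).1
    have hdis : Disjoint (cl (del D X T) (N1 (del D X T) v)) R := by
      rw [Finset.disjoint_left]
      intro z hz hz'
      obtain ⟨hz1, hz2, hz3⟩ := (hR z).1 hz'
      obtain ⟨y, hy, hyz⟩ := mem_cl.1 hz
      rw [hN] at hy
      obtain ⟨hy1, hy2⟩ := mem_sdiff.1 hy
      have hyXT : y ∈ X ∨ y ∈ T := by
        by_contra hcon
        push Not at hcon
        exact hy2 (mem_filter.2 ⟨hy1, hcon.1, hcon.2⟩)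
      rcases hyz with rfl | hyz
      · rcases hyXT with h1 | h1
        · exact hz2 h1
        · exact hz3 (subset_cl D T h1)
      · rcases hyXT with h1 | h1
        · have : z ∈ T := by
            by_contra hzT
            exact hyz.2 ⟨h1, hz2, hzT⟩
          exact hz3 (subset_cl D T this)
        · exact hz3 (mem_cl.2 ⟨y, h1, Or.inr hyz.1⟩)
    have c2 := Finset.card_le_card hsub
    rw [Finset.card_union_of_disjoint hdis] at c2
    omega
  · have hN : N1 (del D X T) v = N1 D v := by
      ext z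
      simp only [mem_N1, del]
      exact ⟨fun h1 => h1.1, fun h1 => ⟨h1, fun h2 => hvX h2.1⟩⟩
    have hsub : cl (del D X T) (N1 (del D X T) v) ⊆ cl D (N1 D v) := by
      intro z hz
      obtain ⟨y, hy, hyz⟩ := mem_cl.1 hz
      rw [hN] at hy
      refine mem_cl.2 ⟨y, hy, ?_⟩
      rcases hyz with h2 | h2
      · exact Or.inl h2
      · exact Or.inr h2.1
    have c2 := Finset.card_le_card hsub
    rw [hN] at e2 c2 ⊢
    omega

end

section Minimal

universe u

/-- The induced subgraph. -/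
def ind {V : Type u} (D : OGraph V) (X : Finset V) : OGraph {v // v ∈ X} where
  arc a b := D.arc a.1 b.1
  loopless a := D.loopless a.1
  asymm a b := D.asymm a.1 b.1

variable {V : Type u} [Fintype V]

/-- In an arc-minimal counterexample on a minimal number of vertices, every proper set has a
decreasing boundary. -/
theorem gg (D : OGraph V) (hCE : CE D) (hmin : ∀ D' : OGraph V, CE D' → arcs D ≤ arcs D')
    (IH : ∀ (V' : Type u) [Fintype V'] [Nonempty V'], Fintype.card V' < Fintype.card V →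
      ∀ D' : OGraph V', ¬ CE D') (X : Finset V) (hne : X.Nonempty) (hX : X ≠ univ) :
    (cl D (cl D X)).card + X.card < 2 * (cl D X).card := by
  classical
  set L := cl D X \ X with hL
  set dd : Finset V → ℤ := fun T => ((cl D T \ X).card : ℤ) - 2 * T.card with hdd
  obtain ⟨T, hT, hTmin⟩ := Finset.exists_min_image L.powerset dd ⟨∅, by simp⟩
  have hTL : T ⊆ L := Finset.mem_powerset.1 hT
  have hce : CE (del D X T) := by
    apply ce_del hCE
    intro S hS1 hS2 hS3
    refine ⟨(cl D S \ X) \ cl D T, fun z => by simp only [mem_sdiff]; tauto, ?_⟩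
    have hSL : S ⊆ L := by
      intro z hz
      exact mem_sdiff.2 ⟨hS3 hz, fun h => (Finset.disjoint_left.1 hS1 hz) h⟩
    have h1 := hTmin (T ∪ S) (Finset.mem_powerset.2 (Finset.union_subset hTL hSL))
    have c1 : (T ∪ S).card = T.card + S.card := Finset.card_union_of_disjoint hS2.symm
    have c2 : (cl D (T ∪ S) \ X).card =
        (cl D T \ X).card + ((cl D S \ X) \ cl D T).card := by
      rw [← Finset.card_union_of_disjoint]
      · congr 1
        ext z
        simp only [mem_sdiff, mem_union, mem_cl]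
        constructor
        · rintro ⟨⟨y, hy | hy, hyz⟩, hz⟩
          · exact Or.inl ⟨⟨y, hy, hyz⟩, hz⟩
          · by_cases h : ∃ y ∈ T, Adj D y z
            · exact Or.inl ⟨h, hz⟩
            · exact Or.inr ⟨⟨⟨y, hy, hyz⟩, hz⟩, h⟩
        · rintro (⟨⟨y, hy, hyz⟩, hz⟩ | ⟨⟨⟨y, hy, hyz⟩, hz⟩, _⟩)
          · exact ⟨⟨y, Or.inl hy, hyz⟩, hz⟩
          · exact ⟨⟨y, Or.inr hy, hyz⟩, hz⟩
      · rw [Finset.disjoint_left]
        intro z hz hz'
        exact (mem_sdiff.1 hz').2 (mem_sdiff.1 hz).1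
    simp only [hdd] at h1
    rw [c1, c2] at h1
    push_cast at h1
    omega
  have harc : ∀ u z, D.arc u z → ¬ (u ∈ X ∧ z ∉ X ∧ z ∉ T) := by
    have hsub : (univ.filter fun p : V × V => (del D X T).arc p.1 p.2) ⊆
        univ.filter fun p : V × V => D.arc p.1 p.2 := by
      intro p hp
      rw [mem_filter] at hp ⊢
      exact ⟨hp.1, hp.2.1⟩
    have heq := Finset.eq_of_subset_of_card_le hsub (hmin _ hce)
    intro u z huz
    have : (u, z) ∈ univ.filter fun p : V × V => D.arc p.1 p.2 := by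
      rw [mem_filter]
      exact ⟨mem_univ _, huz⟩
    rw [← heq, mem_filter] at this
    exact this.2.2
  have hLT : L ⊆ T := by
    intro z hz
    obtain ⟨hz1, hz2⟩ := mem_sdiff.1 hz
    obtain ⟨y, hy, hyz⟩ := mem_cl.1 hz1
    rcases hyz with rfl | hyz
    · exact absurd hy hz2
    · by_contra hzT
      exact harc y z hyz ⟨hy, hz2, hzT⟩
  -- the induced subgraph
  have : Nonempty {v // v ∈ X} := ⟨⟨hne.choose, hne.choose_spec⟩⟩
  have hcard : Fintype.card {v // v ∈ X} < Fintype.card V := by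
    rw [Fintype.card_coe]
    exact (Finset.card_lt_iff_ne_univ X).2 hX
  have hnot := IH {v // v ∈ X} hcard (ind D X)
  unfold CE at hnot
  push Not at hnot
  obtain ⟨x, hx⟩ := hnot
  have n1 : (N1 (ind D X) x).card = (N1 D x.1 ∩ X).card := by
    rw [← Finset.card_map ⟨Subtype.val, Subtype.val_injective⟩]
    congr 1
    ext z
    simp only [Finset.mem_map, mem_N1, Function.Embedding.coeFn_mk, mem_inter, ind]
    constructor
    · rintro ⟨a, ha, rfl⟩
      exact ⟨ha, a.2⟩
    · rintro ⟨h1, h2⟩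
      exact ⟨⟨z, h2⟩, h1, rfl⟩
  set Z := (N2 (ind D X) x).map ⟨Subtype.val, Subtype.val_injective⟩ with hZ
  have n2 : Z.card = (N2 (ind D X) x).card := Finset.card_map _
  have hZmem : ∀ z ∈ Z, z ∈ X ∧ z ≠ x.1 ∧ ¬ D.arc x.1 z ∧ ∃ u, D.arc x.1 u ∧ D.arc u z := by
    intro z hz
    rw [hZ, Finset.mem_map] at hz
    obtain ⟨a, ha, rfl⟩ := hz
    obtain ⟨h1, h2, u, h3, h4⟩ := mem_N2.1 ha
    exact ⟨a.2, fun h => h1 (Subtype.ext h), h2, u.1, h3, h4⟩
  set K := N1 D x.1 \ X with hK
  have hKL : K ⊆ T := by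
    intro z hz
    obtain ⟨h1, h2⟩ := mem_sdiff.1 hz
    exact hLT (mem_sdiff.2 ⟨mem_cl.2 ⟨x.1, x.2, Or.inr (mem_N1.1 h1)⟩, h2⟩)
  have hm := hTmin K (Finset.mem_powerset.2 (hKL.trans hTL))
  have k1 : K.card + (N1 D x.1 ∩ X).card = (N1 D x.1).card :=
    Finset.card_sdiff_add_card_inter _ _
  have k2 : (cl D K \ X).card + (cl D (N1 D x.1) ∩ X).card ≤ (cl D (N1 D x.1)).card := by
    rw [← Finset.card_sdiff_add_card_inter (cl D (N1 D x.1)) X]
    refine Nat.add_le_add_right (Finset.card_le_card ?_) _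
    exact Finset.sdiff_subset_sdiff (cl_mono Finset.sdiff_subset) Subset.rfl
  have k3 : (N1 D x.1 ∩ X).card + Z.card ≤ (cl D (N1 D x.1) ∩ X).card := by
    rw [← Finset.card_union_of_disjoint]
    · refine Finset.card_le_card ?_
      intro z hz
      rcases mem_union.1 hz with h | h
      · obtain ⟨h1, h2⟩ := mem_inter.1 h
        exact mem_inter.2 ⟨subset_cl D _ h1, h2⟩
      · obtain ⟨h1, _, _, u, h3, h4⟩ := hZmem z h
        exact mem_inter.2 ⟨mem_cl.2 ⟨u, mem_N1.2 h3, Or.inr h4⟩, h1⟩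
    · rw [Finset.disjoint_left]
      intro z hz hz'
      exact (hZmem z hz').2.2.1 (mem_N1.1 (mem_inter.1 hz).1)
  have k4 := card_cl_N1 D x.1
  have k5 := hCE x.1
  have k6 : (cl D (cl D X)).card = X.card + (cl D T \ X).card := by
    rw [← Finset.card_union_of_disjoint]
    · congr 1
      ext z
      simp only [mem_union, mem_sdiff]
      constructor
      · intro hz
        by_cases hzX : z ∈ X
        · exact Or.inl hzX
        · refine Or.inr ⟨?_, hzX⟩
          obtain ⟨y, hy, hyz⟩ := mem_cl.1 hz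
          by_cases hyX : y ∈ X
          · exact subset_cl D _ (hLT (mem_sdiff.2 ⟨mem_cl.2 ⟨y, hyX, hyz⟩, hzX⟩))
          · exact mem_cl.2 ⟨y, hLT (mem_sdiff.2 ⟨hy, hyX⟩), hyz⟩
      · rintro (hz | ⟨hz, _⟩)
        · exact subset_cl D _ (subset_cl D _ hz)
        · exact cl_mono (fun y hy => (mem_sdiff.1 (hTL hy)).1) hz
    · rw [Finset.disjoint_left]
      intro z hz hz'
      exact (mem_sdiff.1 hz').2 hz
  have k7 : T.card + X.card = (cl D X).card := by
    have : T.card = (cl D X \ X).card := by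
      congr 1
      exact Finset.Subset.antisymm hTL hLT
    rw [this]
    exact Finset.card_sdiff_add_card_eq_card (subset_cl D X)
  simp only [hdd] at hm
  omega

end Minimal

end Vale.Agent.P038.H915
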