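import Mathlib

/-!
# The rectangle inequality

A monotone allocation argument (P038).
-/

namespace Vale.Agent.P038.H915

open Finset

section Market

variable {Y A : Type*}

open Classical in
/-- The number of elements of `As` adjacent to `O`, minus the size of `O`. -/
noncomputable def exc (E : Y → A → Prop) (As : Finset A) (O : Finset Y) : ℤ :=
  ((As.filter fun a => ∃ y ∈ O, E y a).card : ℤ) - O.card

open Classical in
/-- The subsets of `Ys` which contain all elements of rank smaller than `j`. -/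
noncomputable def fam (rk : Y → ℕ) (Ys : Finset Y) (j : ℕ) : Finset (Finset Y) :=
  Ys.powerset.filter fun O => ∀ y ∈ Ys, rk y < j → y ∈ O

theorem mem_fam {rk : Y → ℕ} {Ys : Finset Y} {j : ℕ} {O : Finset Y} :
    O ∈ fam rk Ys j ↔ O ⊆ Ys ∧ ∀ y ∈ Ys, rk y < j → y ∈ O := by
  classical
  simp [fam]

theorem fam_nonempty (rk : Y → ℕ) (Ys : Finset Y) (j : ℕ) : (fam rk Ys j).Nonempty :=
  ⟨Ys, mem_fam.2 ⟨Subset.rfl, fun _ h _ => h⟩⟩

/-- The minimal excess of a set which contains all elements of rank smaller than `j`. -/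
noncomputable def mm (E : Y → A → Prop) (rk : Y → ℕ) (Ys : Finset Y) (As : Finset A) (j : ℕ) : ℤ :=
  (fam rk Ys j).inf' (fam_nonempty rk Ys j) (exc E As)

variable {E : Y → A → Prop} {rk : Y → ℕ} {Ys : Finset Y} {As : Finset A} {j : ℕ}

theorem mm_le {O : Finset Y} (h : O ⊆ Ys) (h' : ∀ y ∈ Ys, rk y < j → y ∈ O) :
    mm E rk Ys As j ≤ exc E As O :=
  Finset.inf'_le _ (mem_fam.2 ⟨h, h'⟩)

theorem mm_exists (E : Y → A → Prop) (rk : Y → ℕ) (Ys : Finset Y) (As : Finset A) (j : ℕ) :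
    ∃ O, O ⊆ Ys ∧ (∀ y ∈ Ys, rk y < j → y ∈ O) ∧ mm E rk Ys As j = exc E As O := by
  obtain ⟨O, hO, he⟩ := Finset.exists_mem_eq_inf' (fam_nonempty rk Ys j) (exc E As)
  exact ⟨O, (mem_fam.1 hO).1, (mem_fam.1 hO).2, he⟩

theorem mm_step (E : Y → A → Prop) (rk : Y → ℕ) (Ys : Finset Y) (As : Finset A) (j : ℕ) :
    mm E rk Ys As j ≤ mm E rk Ys As (j + 1) := by
  obtain ⟨O, h1, h2, h3⟩ := mm_exists E rk Ys As (j + 1)
  rw [h3]
  exact mm_le h1 fun y hy hj => h2 y hy (by omega)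

theorem mm_zero (h : ∀ O ⊆ Ys, 0 ≤ exc E As O) : mm E rk Ys As 0 = 0 := by
  apply le_antisymm
  · have := mm_le (E := E) (rk := rk) (As := As) (j := 0) (Finset.empty_subset Ys)
      (fun y _ hj => absurd hj (Nat.not_lt_zero _))
    simpa [exc] using this
  · obtain ⟨O, h1, _, h3⟩ := mm_exists E rk Ys As 0
    rw [h3]
    exact h O h1

theorem mm_top {n : ℕ} (h : ∀ y ∈ Ys, rk y < n) : mm E rk Ys As n = exc E As Ys := by
  obtain ⟨O, h1, h2, h3⟩ := mm_exists E rk Ys As n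
  have : O = Ys := Finset.Subset.antisymm h1 fun y hy => h2 y hy (h y hy)
  rw [h3, this]

theorem mm_eq (h : ∀ y ∈ Ys, rk y ≠ j) : mm E rk Ys As (j + 1) = mm E rk Ys As j := by
  apply le_antisymm _ (mm_step E rk Ys As j)
  obtain ⟨O, h1, h2, h3⟩ := mm_exists E rk Ys As j
  rw [h3]
  refine mm_le h1 fun y hy hj => h2 y hy ?_
  have := h y hy
  omega

/-- The exchange inequality. -/
theorem exchange {Yx Yb : Finset Y} {Ax Ab : Finset A} (hA : Ax ⊆ Ab)
    (hE : ∀ y ∈ Yb, ∀ a ∈ Ax, E y a → y ∈ Yx) (hrk : Function.Injective rk) {y0 : Y}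
    (hx : y0 ∈ Yx) (hb : y0 ∈ Yb) :
    mm E rk Yx Ax (rk y0 + 1) + mm E rk Yb Ab (rk y0) ≤
      mm E rk Yx Ax (rk y0) + mm E rk Yb Ab (rk y0 + 1) := by
  classical
  obtain ⟨Ox, h1, h2, h3⟩ := mm_exists E rk Yx Ax (rk y0)
  obtain ⟨Ob, g1, g2, g3⟩ := mm_exists E rk Yb Ab (rk y0 + 1)
  by_cases hy : y0 ∈ Ox
  · have e1 : mm E rk Yx Ax (rk y0 + 1) ≤ exc E Ax Ox := by
      refine mm_le h1 fun y hy' hj => ?_
      rcases Nat.lt_succ_iff_lt_or_eq.1 hj with h | h
      · exact h2 y hy' h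
      · rw [hrk h]; exact hy
    have e2 := mm_step E rk Yb Ab (rk y0)
    omega
  · set T := (Ob ∩ Yx) \ Ox with hT
    have e1 : mm E rk Yx Ax (rk y0 + 1) ≤ exc E Ax (Ox ∪ T) := by
      refine mm_le ?_ fun y hy' hj => ?_
      · intro z hz
        simp only [hT, mem_union, mem_sdiff, mem_inter] at hz
        rcases hz with h | h
        · exact h1 h
        · exact h.1.2
      · rcases Nat.lt_succ_iff_lt_or_eq.1 hj with h | h
        · exact mem_union_left _ (h2 y hy' h)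
        · rw [hrk h]
          simp only [hT, mem_union, mem_sdiff, mem_inter]
          exact Or.inr ⟨⟨g2 y0 hb (by omega), hx⟩, hy⟩
    have e2 : mm E rk Yb Ab (rk y0) ≤ exc E Ab (Ob \ T) := by
      refine mm_le (fun z hz => g1 (mem_sdiff.1 hz).1) fun y hy' hj => ?_
      refine mem_sdiff.2 ⟨g2 y hy' (by omega), ?_⟩
      simp only [hT, mem_sdiff, mem_inter, not_and, not_not]
      intro h
      exact h2 y h.2 hj
    have hTO : Disjoint Ox T := by
      rw [Finset.disjoint_left]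
      intro z hz hz'
      exact (mem_sdiff.1 hz').2 hz
    have hTb : T ⊆ Ob := fun z hz => (mem_inter.1 (mem_sdiff.1 hz).1).1
    have c1 : (Ox ∪ T).card = Ox.card + T.card := Finset.card_union_of_disjoint hTO
    have c2 : (Ob \ T).card + T.card = Ob.card := Finset.card_sdiff_add_card_eq_card hTb
    -- the new elements
    set N1 := Ax.filter fun a => ∃ y ∈ Ox, E y a with hN1
    set N2 := Ax.filter fun a => ∃ y ∈ Ox ∪ T, E y a with hN2
    set M1 := Ab.filter fun a => ∃ y ∈ Ob \ T, E y a with hM1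
    set M2 := Ab.filter fun a => ∃ y ∈ Ob, E y a with hM2
    have s1 : N1 ⊆ N2 := by
      intro a ha
      simp only [hN1, hN2, mem_filter] at ha ⊢
      obtain ⟨h, y, hy1, hy2⟩ := ha
      exact ⟨h, y, mem_union_left _ hy1, hy2⟩
    have s2 : M1 ⊆ M2 := by
      intro a ha
      simp only [hM1, hM2, mem_filter] at ha ⊢
      obtain ⟨h, y, hy1, hy2⟩ := ha
      exact ⟨h, y, (mem_sdiff.1 hy1).1, hy2⟩
    have s3 : N2 \ N1 ⊆ M2 \ M1 := by
      intro a ha
      simp only [hN1, hN2, mem_sdiff, mem_filter, not_and, not_exists, mem_union] at ha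
      obtain ⟨⟨haA, y, hy1, hy2⟩, ha2⟩ := ha
      have ha2' := ha2 haA
      have hyT : y ∈ T := by
        rcases hy1 with h | h
        · exact absurd hy2 (ha2' y h)
        · exact h
      simp only [hM1, hM2, mem_sdiff, mem_filter, not_and, not_exists]
      refine ⟨⟨hA haA, y, hTb hyT, hy2⟩, fun _ z hz hza => ?_⟩
      have hzx : z ∈ Yx := hE z (g1 hz.1) a haA hza
      have hzO : z ∈ Ox := by
        by_contra hcon
        apply hz.2
        simp only [hT, mem_sdiff, mem_inter]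
        exact ⟨⟨hz.1, hzx⟩, hcon⟩
      exact ha2' z hzO hza
    have k1 := Finset.card_le_card s3
    have k2 := Finset.card_sdiff_add_card_eq_card s1
    have k3 := Finset.card_sdiff_add_card_eq_card s2
    have f1 : exc E Ax Ox = (N1.card : ℤ) - Ox.card := rfl
    have f2 : exc E Ax (Ox ∪ T) = (N2.card : ℤ) - (Ox ∪ T).card := rfl
    have f3 : exc E Ab (Ob \ T) = (M1.card : ℤ) - (Ob \ T).card := rfl
    have f4 : exc E Ab Ob = (M2.card : ℤ) - Ob.card := rfl
    omega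

end Market

section KeyIneq

variable {X B Y A : Type*} [Fintype X] [Fintype B] [Fintype Y] [Fintype A]
  (E1 : X → B → Prop) (E2 : Y → A → Prop) (gP : X → A → Prop) (gQ : Y → B → Prop)

open Classical in
/-- The gap row `U_x`. -/
noncomputable def Ux (x : X) : Finset Y :=
  univ.filter fun y => (∃ b, E1 x b ∧ gQ y b) ∧ ∃ a, E2 y a ∧ gP x a

open Classical in
/-- The set `A_x`. -/
noncomputable def Ax (x : X) : Finset A := univ.filter fun a => gP x a

open Classical in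
/-- The set `V_b`. -/
noncomputable def Vb (b : B) : Finset Y :=
  univ.filter fun y => gQ y b ∧ ∃ a, E2 y a ∧ ∃ x, E1 x b ∧ gP x a

open Classical in
/-- The set `A^b`. -/
noncomputable def Ab (b : B) : Finset A := univ.filter fun a => ∃ x, E1 x b ∧ gP x a

variable {E1 E2 gP gQ}

omit [Fintype X] in
theorem mem_Ux {x : X} {y : Y} :
    y ∈ Ux E1 E2 gP gQ x ↔ (∃ b, E1 x b ∧ gQ y b) ∧ ∃ a, E2 y a ∧ gP x a := by
  classical
  simp [Ux]

omit [Fintype X] [Fintype B] [Fintype Y] in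
theorem mem_Ax {x : X} {a : A} : a ∈ Ax gP x ↔ gP x a := by
  classical
  simp [Ax]

omit [Fintype B] in
theorem mem_Vb {b : B} {y : Y} :
    y ∈ Vb E1 E2 gP gQ b ↔ gQ y b ∧ ∃ a, E2 y a ∧ ∃ x, E1 x b ∧ gP x a := by
  classical
  simp [Vb]

omit [Fintype B] in
theorem mem_Ab {b : B} {a : A} : a ∈ Ab E1 gP b ↔ ∃ x, E1 x b ∧ gP x a := by
  classical
  simp [Ab]

/-- Hall's condition passes from the rows `x` to the rows `b`. -/
theorem hall_b (hx : ∀ x, ∀ O ⊆ Ux E1 E2 gP gQ x, 0 ≤ exc E2 (Ax gP x) O) (b : B) :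
    ∀ O : Finset Y, O ⊆ Vb E1 E2 gP gQ b → 0 ≤ exc E2 (Ab E1 gP b) O := by
  classical
  intro O
  induction O using Finset.strongInduction with
  | H O ih =>
    intro hO
    rcases O.eq_empty_or_nonempty with h0 | ⟨y, hy⟩
    · rw [h0]; simp [exc]
    · obtain ⟨hq, a, hya, x, hxb, hxa⟩ := mem_Vb.1 (hO hy)
      set O1 := O ∩ Ux E1 E2 gP gQ x with hO1
      set O2 := O \ Ux E1 E2 gP gQ x with hO2
      have hyU : y ∈ Ux E1 E2 gP gQ x := mem_Ux.2 ⟨⟨b, hxb, hq⟩, a, hya, hxa⟩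
      have hss : O2 ⊂ O := by
        refine Finset.ssubset_iff_subset_ne.2 ⟨Finset.sdiff_subset, fun h => ?_⟩
        have : y ∈ O2 := by rw [h]; exact hy
        exact (mem_sdiff.1 this).2 hyU
      have i1 := hx x O1 Finset.inter_subset_right
      have i2 := ih O2 hss (fun z hz => hO (mem_sdiff.1 hz).1)
      have c1 : O1.card + O2.card = O.card := Finset.card_inter_add_card_sdiff O _
      set M1 := (Ax gP x).filter fun a => ∃ y ∈ O1, E2 y a with hM1
      set M2 := (Ab E1 gP b).filter fun a => ∃ y ∈ O2, E2 y a with hM2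
      set M := (Ab E1 gP b).filter fun a => ∃ y ∈ O, E2 y a with hM
      have hd : Disjoint M1 M2 := by
        rw [Finset.disjoint_left]
        intro c hc hc'
        simp only [hM1, hM2, mem_filter, mem_Ax, mem_Ab] at hc hc'
        obtain ⟨hc1, _⟩ := hc
        obtain ⟨_, z, hz, hzc⟩ := hc'
        have hz' := mem_sdiff.1 hz
        apply hz'.2
        exact mem_Ux.2 ⟨⟨b, hxb, (mem_Vb.1 (hO hz'.1)).1⟩, c, hzc, hc1⟩
      have hsub : M1 ∪ M2 ⊆ M := by
        intro c hc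
        simp only [hM1, hM2, hM, mem_union, mem_filter, mem_Ax, mem_Ab] at hc ⊢
        rcases hc with ⟨h1, z, hz, hzc⟩ | ⟨h1, z, hz, hzc⟩
        · exact ⟨⟨x, hxb, h1⟩, z, (mem_inter.1 hz).1, hzc⟩
        · exact ⟨h1, z, (mem_sdiff.1 hz).1, hzc⟩
      have c2 := Finset.card_le_card hsub
      rw [Finset.card_union_of_disjoint hd] at c2
      have e1 : exc E2 (Ax gP x) O1 = (M1.card : ℤ) - O1.card := rfl
      have e2 : exc E2 (Ab E1 gP b) O2 = (M2.card : ℤ) - O2.card := rfl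
      have e3 : exc E2 (Ab E1 gP b) O = (M.card : ℤ) - O.card := rfl
      omega

/-- Telescoping. -/
theorem sum_tel {n : ℕ} (e : Y ≃ Fin n) (g : ℕ → ℤ) :
    ∑ y : Y, (g ((e y : ℕ) + 1) - g (e y : ℕ)) = g n - g 0 := by
  rw [e.sum_comp (fun i : Fin n => g ((i : ℕ) + 1) - g (i : ℕ)),
    Fin.sum_univ_eq_sum_range (fun i => g (i + 1) - g i) n, Finset.sum_range_sub]

/-- **The rectangle inequality.** -/
theorem key (hx : ∀ x, ∀ O ⊆ Ux E1 E2 gP gQ x, 0 ≤ exc E2 (Ax gP x) O)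
    (hy : ∀ y, ∀ O : Finset X, (∀ x ∈ O, y ∈ Ux E1 E2 gP gQ x) →
      ∃ N : Finset B, (∀ b ∈ N, gQ y b ∧ ∃ x ∈ O, E1 x b) ∧ O.card ≤ N.card) :
    ∑ x, exc E2 (Ax gP x) (Ux E1 E2 gP gQ x) ≤ ∑ b, exc E2 (Ab E1 gP b) (Vb E1 E2 gP gQ b) := by
  classical
  set n := Fintype.card Y with hn
  set e := Fintype.equivFin Y with he
  set rk : Y → ℕ := fun y => (e y : ℕ) with hrk
  have hinj : Function.Injective rk := fun a b h => e.injective (Fin.ext h)
  have hlt : ∀ y, rk y < n := fun y => (e y).2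
  set px : X → Y → ℤ := fun x y =>
    mm E2 rk (Ux E1 E2 gP gQ x) (Ax gP x) (rk y + 1) -
      mm E2 rk (Ux E1 E2 gP gQ x) (Ax gP x) (rk y) with hpx
  set pb : B → Y → ℤ := fun b y =>
    mm E2 rk (Vb E1 E2 gP gQ b) (Ab E1 gP b) (rk y + 1) -
      mm E2 rk (Vb E1 E2 gP gQ b) (Ab E1 gP b) (rk y) with hpb
  have hb := hall_b (E1 := E1) (E2 := E2) (gP := gP) (gQ := gQ) hx
  have sx : ∀ x, exc E2 (Ax gP x) (Ux E1 E2 gP gQ x) = ∑ y, px x y := by
    intro x
    rw [hpx]
    rw [sum_tel e (fun j => mm E2 rk (Ux E1 E2 gP gQ x) (Ax gP x) j), mm_top (fun y _ => hlt y),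
      mm_zero (hx x), sub_zero]
  have sb : ∀ b, exc E2 (Ab E1 gP b) (Vb E1 E2 gP gQ b) = ∑ y, pb b y := by
    intro b
    rw [hpb]
    rw [sum_tel e (fun j => mm E2 rk (Vb E1 E2 gP gQ b) (Ab E1 gP b) j),
      mm_top (fun y _ => hlt y), mm_zero (hb b), sub_zero]
  have pb0 : ∀ b y, 0 ≤ pb b y := fun b y => sub_nonneg.2 (mm_step _ _ _ _ _)
  have px0 : ∀ x y, y ∉ Ux E1 E2 gP gQ x → px x y = 0 := by
    intro x y hxy
    rw [hpx]
    simp only
    rw [mm_eq, sub_self]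
    intro z hz h
    exact hxy (hinj h ▸ hz)
  have mono : ∀ x b y, E1 x b → y ∈ Ux E1 E2 gP gQ x → y ∈ Vb E1 E2 gP gQ b →
      px x y ≤ pb b y := by
    intro x b y hxb h1 h2
    have := exchange (E := E2) (rk := rk) (Yx := Ux E1 E2 gP gQ x) (Yb := Vb E1 E2 gP gQ b)
      (Ax := Ax gP x) (Ab := Ab E1 gP b)
      (fun a ha => mem_Ab.2 ⟨x, hxb, mem_Ax.1 ha⟩)
      (fun z hz a ha hza => mem_Ux.2 ⟨⟨b, hxb, (mem_Vb.1 hz).1⟩, a, hza, mem_Ax.1 ha⟩)
      hinj h1 h2
    rw [hpx, hpb]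
    simp only
    omega
  simp only [sx, sb]
  rw [Finset.sum_comm, Finset.sum_comm (s := (univ : Finset B))]
  refine Finset.sum_le_sum fun y _ => ?_
  -- fixed `y`
  set S := univ.filter fun x => y ∈ Ux E1 E2 gP gQ x with hS
  have e0 : ∑ x, px x y = ∑ x ∈ S, px x y := by
    symm
    apply Finset.sum_subset (Finset.subset_univ _)
    intro x _ hxS
    apply px0
    intro h
    exact hxS (by simp [hS, h])
  rw [e0]
  obtain ⟨f, hf1, hf2⟩ := (Finset.all_card_le_biUnion_card_iff_exists_injective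
    (fun x : {x // x ∈ S} => univ.filter fun b => gQ y b ∧ E1 x.1 b)).1 (by
      intro s
      obtain ⟨N, hN1, hN2⟩ := hy y (s.map ⟨Subtype.val, Subtype.val_injective⟩) (by
        intro x hx'
        rw [Finset.mem_map] at hx'
        obtain ⟨z, _, hz2⟩ := hx'
        have := z.2
        simp only [hS, mem_filter, mem_univ, true_and] at this
        rw [← hz2]
        exact this)
      rw [Finset.card_map] at hN2
      refine hN2.trans (Finset.card_le_card ?_)
      intro b hb'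
      obtain ⟨h1, x, hx1, hx2⟩ := hN1 b hb'
      rw [Finset.mem_map] at hx1
      obtain ⟨z, hz1, hz2⟩ := hx1
      rw [Finset.mem_biUnion]
      refine ⟨z, hz1, ?_⟩
      simp only [mem_filter, mem_univ, true_and]
      have hz3 : z.1 = x := hz2
      rw [hz3]
      exact ⟨h1, hx2⟩)
  have hf2' : ∀ x : {x // x ∈ S}, gQ y (f x) ∧ E1 x.1 (f x) := by
    intro x
    have := hf2 x
    simpa using this
  calc ∑ x ∈ S, px x y = ∑ x : {x // x ∈ S}, px x.1 y := by
        rw [← Finset.sum_coe_sort]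
    _ ≤ ∑ x : {x // x ∈ S}, pb (f x) y := by
        refine Finset.sum_le_sum fun x _ => ?_
        have hxU : y ∈ Ux E1 E2 gP gQ x.1 := (Finset.mem_filter.1 x.2).2
        obtain ⟨_, a, ha1, ha2⟩ := mem_Ux.1 hxU
        exact mono x.1 (f x) y (hf2' x).2 hxU
          (mem_Vb.2 ⟨(hf2' x).1, a, ha1, x.1, (hf2' x).2, ha2⟩)
    _ = ∑ b ∈ univ.image f, pb b y := by
        rw [Finset.sum_image fun a _ b _ h => hf1 h]
    _ ≤ ∑ b, pb b y := Finset.sum_le_sum_of_subset_of_nonneg (Finset.subset_univ _)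
        fun b _ _ => pb0 b y

end KeyIneq

end Vale.Agent.P038.H915
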