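import Vale.Agent.P038.H915.Key
import Vale.Agent.P038.H915.GG

/-!
# Optimal pairs of relations
-/

namespace Vale.Agent.P038.H915

open Finset

section

variable {V : Type*} [Fintype V]

/-- The boundary of a set. -/
noncomputable def cc (D : OGraph V) (S : Finset V) : ℤ := ((cl D S).card : ℤ) - S.card

/-- A pair of relations (given by their rows). -/
structure IsPair (D : OGraph V) (P Q : V → Finset V) : Prop where
  hP : ∀ x b, Adj D x b → b ∈ P x
  hQ : ∀ x b, Adj D x b → b ∈ Q x
  hd : ∀ x y, x ≠ y → y ∈ P x → x ∉ Q y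

/-- The energy of a pair. -/
noncomputable def en (D : OGraph V) (P Q : V → Finset V) : ℤ :=
  ∑ x, cc D (P x) + ∑ x, cc D (Q x)

omit [Fintype V] in
theorem IsPair.symm {D : OGraph V} {P Q : V → Finset V} (h : IsPair D P Q) : IsPair D Q P :=
  ⟨h.hQ, h.hP, fun x y hxy h1 h2 => h.hd y x hxy.symm h2 h1⟩

theorem en_symm (D : OGraph V) (P Q : V → Finset V) : en D P Q = en D Q P := add_comm _ _

theorem exists_pair (D : OGraph V) : ∃ P Q, IsPair D P Q := by
  refine ⟨fun x => cl D {x}, fun x => cl D {x}, ?_, ?_, ?_⟩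
  · intro x b h
    exact mem_cl.2 ⟨x, Finset.mem_singleton_self x, h⟩
  · intro x b h
    exact mem_cl.2 ⟨x, Finset.mem_singleton_self x, h⟩
  · intro x y hxy h1 h2
    obtain ⟨z, hz, h3⟩ := mem_cl.1 h1
    obtain ⟨z', hz', h4⟩ := mem_cl.1 h2
    rw [Finset.mem_singleton] at hz hz'
    subst hz hz'
    rcases h3 with h3 | h3
    · exact hxy h3
    · rcases h4 with h4 | h4
      · exact hxy h4.symm
      · exact D.asymm _ _ h3 h4

theorem exists_min_pair (D : OGraph V) :
    ∃ P Q, IsPair D P Q ∧ ∀ P' Q', IsPair D P' Q' → en D P Q ≤ en D P' Q' := by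
  classical
  obtain ⟨P0, Q0, h0⟩ := exists_pair D
  obtain ⟨p, hp, hmin⟩ := Finset.exists_min_image
    (univ.filter fun p : (V → Finset V) × (V → Finset V) => IsPair D p.1 p.2)
    (fun p => en D p.1 p.2) ⟨(P0, Q0), by simpa using h0⟩
  refine ⟨p.1, p.2, (Finset.mem_filter.1 hp).2, fun P' Q' h => ?_⟩
  exact hmin (P', Q') (Finset.mem_filter.2 ⟨Finset.mem_univ _, h⟩)

theorem hallP {D : OGraph V} {P Q : V → Finset V} (h : IsPair D P Q)
    (hmin : ∀ P' Q', IsPair D P' Q' → en D P Q ≤ en D P' Q') (x : V) (O : Finset V)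
    (hO : ∀ y ∈ O, y ∉ P x ∧ x ∉ Q y) (R : Finset V)
    (hR : ∀ a, a ∈ R ↔ a ∉ cl D (P x) ∧ ∃ y ∈ O, Adj D y a) : O.card ≤ R.card := by
  classical
  set P' : V → Finset V := Function.update P x (P x ∪ O) with hP'
  have hx : P' x = P x ∪ O := by simp [hP']
  have hne : ∀ z, z ≠ x → P' z = P z := fun z hz => by simp [hP', hz]
  have hpair : IsPair D P' Q := by
    refine ⟨?_, h.hQ, ?_⟩
    · intro z b hzb
      by_cases hz : z = x
      · subst hz; rw [hx]; exact mem_union_left _ (h.hP _ _ hzb)
      · rw [hne z hz]; exact h.hP _ _ hzb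
    · intro z y hzy h1
      by_cases hz : z = x
      · subst hz
        rw [hx] at h1
        rcases mem_union.1 h1 with h2 | h2
        · exact h.hd _ _ hzy h2
        · exact (hO y h2).2
      · rw [hne z hz] at h1
        exact h.hd _ _ hzy h1
  have h1 := hmin P' Q hpair
  have h2 : ∑ z, cc D (P' z) - ∑ z, cc D (P z) = cc D (P x ∪ O) - cc D (P x) := by
    rw [← Finset.sum_sub_distrib, Finset.sum_eq_single x]
    · rw [hx]
    · intro z _ hz
      rw [hne z hz, sub_self]
    · intro hx'
      exact absurd (Finset.mem_univ x) hx'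
  have h3 : (P x ∪ O).card = (P x).card + O.card := by
    apply Finset.card_union_of_disjoint
    rw [Finset.disjoint_left]
    intro z hz hz'
    exact (hO z hz').1 hz
  have h4 : (cl D (P x ∪ O)).card = (cl D (P x)).card + R.card := by
    rw [← Finset.card_union_of_disjoint]
    · congr 1
      ext z
      rw [mem_union, hR, mem_cl, mem_cl]
      constructor
      · rintro ⟨y, hy, hyz⟩
        by_cases hc : ∃ y ∈ P x, Adj D y z
        · exact Or.inl hc
        · rcases mem_union.1 hy with h5 | h5
          · exact absurd ⟨y, h5, hyz⟩ hc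
          · exact Or.inr ⟨fun h6 => hc h6, y, h5, hyz⟩
      · rintro (⟨y, hy, hyz⟩ | ⟨_, y, hy, hyz⟩)
        · exact ⟨y, mem_union_left _ hy, hyz⟩
        · exact ⟨y, mem_union_right _ hy, hyz⟩
    · rw [Finset.disjoint_left]
      intro z hz hz'
      exact ((hR z).1 hz').1 hz
  unfold en at h1
  unfold cc at h2 h1
  rw [h3, h4] at h2
  push_cast at h2
  omega

open Classical in
/-- The indicator of a proposition. -/
noncomputable def io (p : Prop) : ℤ := if p then 1 else 0

theorem io_true {p : Prop} (h : p) : io p = 1 := by simp [io, h]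

theorem io_false {p : Prop} (h : ¬ p) : io p = 0 := by simp [io, h]

theorem io_nonneg (p : Prop) : 0 ≤ io p := by
  unfold io; split_ifs <;> norm_num

theorem io_le_one (p : Prop) : io p ≤ 1 := by
  unfold io; split_ifs <;> norm_num

theorem card_eq_io (S : Finset V) : (S.card : ℤ) = ∑ z, io (z ∈ S) := by
  classical
  have h1 : ∑ z ∈ S, io (z ∈ S) = ∑ z, io (z ∈ S) :=
    Finset.sum_subset (Finset.subset_univ S) fun z _ hz => io_false hz
  rw [← h1, Finset.sum_congr rfl fun z hz => io_true hz, Finset.sum_const, nsmul_eq_mul, mul_one]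

/-- From an optimal pair to a compatible pair of the same energy, one step earlier. -/
theorem improve {D : OGraph V} {P Q : V → Finset V} (h : IsPair D P Q)
    (hmin : ∀ P' Q', IsPair D P' Q' → en D P Q ≤ en D P' Q') :
    ∃ X Y : V → Finset V, (∀ a, a ∈ X a) ∧ (∀ a, a ∈ Y a) ∧
      (∀ a b, a ≠ b → b ∈ cl D (X a) → a ∉ cl D (Y b)) ∧ en D X Y ≤ en D P Q := by
  classical
  set gP : V → V → Prop := fun x a => a ∉ cl D (P x) with hgP
  set gQ : V → V → Prop := fun y b => b ∉ cl D (Q y) with hgQ
  -- the key inequality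
  have hU : ∀ x y, y ∈ Ux (Adj D) (Adj D) gP gQ x → y ∉ P x ∧ x ∉ Q y := by
    intro x y hy
    obtain ⟨⟨b, hb1, hb2⟩, a, ha1, ha2⟩ := mem_Ux.1 hy
    exact ⟨fun hc => ha2 (mem_cl.2 ⟨y, hc, ha1⟩), fun hc => hb2 (mem_cl.2 ⟨x, hc, hb1⟩)⟩
  have hkey := key (E1 := Adj D) (E2 := Adj D) (gP := gP) (gQ := gQ)
    (by
      intro x O hO
      have := hallP h hmin x O (fun y hy => hU x y (hO hy))
        ((Ax gP x).filter fun a => ∃ y ∈ O, Adj D y a) (fun a => by
          rw [mem_filter, mem_Ax])
      unfold exc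
      omega)
    (by
      intro y O hO
      refine ⟨univ.filter fun b => b ∉ cl D (Q y) ∧ ∃ x ∈ O, Adj D x b, ?_, ?_⟩
      · intro b hb
        exact (mem_filter.1 hb).2
      · refine hallP h.symm (fun P' Q' h' => ?_) y O (fun x hx => ?_) _ (fun a => ?_)
        · rw [en_symm D Q P, en_symm D P' Q']
          exact hmin _ _ h'.symm
        · exact ⟨(hU x y (hO x hx)).2, (hU x y (hO x hx)).1⟩
        · simp only [mem_filter, mem_univ, true_and])
  set JP : V → Finset V := fun x =>
    (Ax gP x).filter fun a => ∃ y ∈ Ux (Adj D) (Adj D) gP gQ x, Adj D y a with hJP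
  set W : V → Finset V := fun b =>
    (Ab (Adj D) gP b).filter fun a => ∃ y ∈ Vb (Adj D) (Adj D) gP gQ b, Adj D y a with hW
  have hkey' : ∑ x, ((JP x).card : ℤ) + ∑ b, ((Vb (Adj D) (Adj D) gP gQ b).card : ℤ) ≤
      ∑ b, ((W b).card : ℤ) + ∑ x, ((Ux (Adj D) (Adj D) gP gQ x).card : ℤ) := by
    unfold exc at hkey
    rw [Finset.sum_sub_distrib, Finset.sum_sub_distrib] at hkey
    simp only [hJP, hW]
    linarith
  -- the relations
  set sb : V → V → Prop := fun b a => ∃ x, Adj D x b ∧ a ∉ cl D (P x) with hsb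
  set sb' : V → V → Prop := fun a b => ∃ y, Adj D y a ∧ b ∉ cl D (Q y) with hsb'
  set Sp : V → V → Prop := fun b a => (sb b a → sb' a b) ∧ ¬ D.arc a b with hSp
  set Sp' : V → V → Prop := fun a b => (sb' a b → sb b a) ∧ ¬ D.arc b a with hSp'
  have adj_sb : ∀ u v, Adj D u v → ¬ sb u v := by
    rintro u v huv ⟨x, h1, h2⟩
    exact h2 (mem_cl.2 ⟨u, h.hP _ _ h1, huv⟩)
  have adj_sb' : ∀ u v, Adj D u v → ¬ sb' u v := by
    rintro u v huv ⟨x, h1, h2⟩
    exact h2 (mem_cl.2 ⟨u, h.hQ _ _ h1, huv⟩)
  set X : V → Finset V := fun a => univ.filter fun x => ∀ u, Adj D x u → u = a ∨ ¬ Sp' u a with hX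
  set Y : V → Finset V := fun b => univ.filter fun y => ∀ u, Adj D y u → u = b ∨ ¬ Sp u b with hY
  have memX : ∀ a x, x ∈ X a ↔ ∀ u, Adj D x u → u = a ∨ ¬ Sp' u a := by
    intro a x; simp [hX]
  have memY : ∀ a x, x ∈ Y a ↔ ∀ u, Adj D x u → u = a ∨ ¬ Sp u a := by
    intro a x; simp [hY]
  refine ⟨X, Y, ?_, ?_, ?_, ?_⟩
  · intro a
    rw [memX]
    rintro u (rfl | hu)
    · exact Or.inl rfl
    · exact Or.inr fun hs => hs.2 hu
  · intro a
    rw [memY]
    rintro u (rfl | hu)
    · exact Or.inl rfl
    · exact Or.inr fun hs => hs.2 hu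
  · intro a b hab h1 h2
    obtain ⟨x, hx, hxb⟩ := mem_cl.1 h1
    obtain ⟨y, hy, hya⟩ := mem_cl.1 h2
    have n1 : ¬ Sp' b a := ((memX a x).1 hx b hxb).resolve_left hab.symm
    have n2 : ¬ Sp a b := ((memY b y).1 hy a hya).resolve_left hab
    apply n1
    refine ⟨fun hs' => ?_, fun harc => ?_⟩
    · by_contra hs
      apply n2
      refine ⟨fun hs2 => absurd hs2 hs, fun harc => ?_⟩
      exact adj_sb' b a (Or.inr harc) hs'
    · apply n2
      refine ⟨fun hs2 => absurd hs2 (adj_sb a b (Or.inr harc)), D.asymm _ _ harc⟩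
  · -- counting
    have pX : ∀ a u, io (u ∈ cl D (X a)) - io (u ∈ X a) ≤
        io (a ∈ cl D (Q u)) + io (u ∈ Vb (Adj D) (Adj D) gP gQ a) - io (Sp' u a) := by
      intro a u
      have hq : ∀ v, Adj D u v → Sp' v a →
          a ∈ cl D (Q u) ∨ u ∈ Vb (Adj D) (Adj D) gP gQ a := by
        intro v huv hv
        by_cases hc : a ∈ cl D (Q u)
        · exact Or.inl hc
        · refine Or.inr (mem_Vb.2 ⟨hc, ?_⟩)
          obtain ⟨x, hx1, hx2⟩ := hv.1 ⟨u, huv, hc⟩
          exact ⟨v, huv, x, hx1, hx2⟩
      have b1 := io_nonneg (a ∈ cl D (Q u))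
      have b2 := io_nonneg (u ∈ Vb (Adj D) (Adj D) gP gQ a)
      have b3 := io_le_one (Sp' u a)
      have hpos : ∀ v, Adj D u v → Sp' v a →
          1 ≤ io (a ∈ cl D (Q u)) + io (u ∈ Vb (Adj D) (Adj D) gP gQ a) := by
        intro v huv hv
        rcases hq v huv hv with h1 | h1
        · rw [io_true h1]; omega
        · rw [io_true h1]; omega
      by_cases h1 : u ∈ X a
      · rw [io_true h1, io_true (subset_cl D _ h1)]
        by_cases h2 : Sp' u a
        · have := hpos u (Or.inl rfl) h2
          omega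
        · rw [io_false h2]; omega
      · rw [io_false h1]
        by_cases h2 : u ∈ cl D (X a)
        · have hnS : ¬ Sp' u a := by
            obtain ⟨x, hx, hxu⟩ := mem_cl.1 h2
            rcases (memX a x).1 hx u hxu with h3 | h3
            · exfalso
              apply h1
              subst h3
              rw [memX]
              rintro v (rfl | hv)
              · exact Or.inl rfl
              · exact Or.inr fun hs => hs.2 hv
            · exact h3
          rw [io_true h2, io_false hnS]
          rw [memX] at h1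
          push Not at h1
          obtain ⟨v, hv1, _, hv3⟩ := h1
          have := hpos v hv1 hv3
          omega
        · rw [io_false h2]
          by_cases h3 : Sp' u a
          · have := hpos u (Or.inl rfl) h3
            omega
          · rw [io_false h3]; omega
    have pY : ∀ a u, io (u ∈ cl D (Y a)) - io (u ∈ Y a) ≤
        io (a ∈ cl D (P u)) + io (a ∈ JP u) - io (Sp u a) := by
      intro a u
      have hq : ∀ v, Adj D u v → Sp v a → a ∈ cl D (P u) ∨ a ∈ JP u := by
        intro v huv hv
        by_cases hc : a ∈ cl D (P u)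
        · exact Or.inl hc
        · refine Or.inr ?_
          obtain ⟨y, hy1, hy2⟩ := hv.1 ⟨u, huv, hc⟩
          simp only [hJP]
          rw [mem_filter, mem_Ax]
          exact ⟨hc, y, mem_Ux.2 ⟨⟨v, huv, hy2⟩, a, hy1, hc⟩, hy1⟩
      have b1 := io_nonneg (a ∈ cl D (P u))
      have b2 := io_nonneg (a ∈ JP u)
      have b3 := io_le_one (Sp u a)
      have hpos : ∀ v, Adj D u v → Sp v a → 1 ≤ io (a ∈ cl D (P u)) + io (a ∈ JP u) := by
        intro v huv hv
        rcases hq v huv hv with h1 | h1
        · rw [io_true h1]; omega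
        · rw [io_true h1]; omega
      by_cases h1 : u ∈ Y a
      · rw [io_true h1, io_true (subset_cl D _ h1)]
        by_cases h2 : Sp u a
        · have := hpos u (Or.inl rfl) h2
          omega
        · rw [io_false h2]; omega
      · rw [io_false h1]
        by_cases h2 : u ∈ cl D (Y a)
        · have hnS : ¬ Sp u a := by
            obtain ⟨x, hx, hxu⟩ := mem_cl.1 h2
            rcases (memY a x).1 hx u hxu with h3 | h3
            · exfalso
              apply h1
              subst h3
              rw [memY]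
              rintro v (rfl | hv)
              · exact Or.inl rfl
              · exact Or.inr fun hs => hs.2 hv
            · exact h3
          rw [io_true h2, io_false hnS]
          rw [memY] at h1
          push Not at h1
          obtain ⟨v, hv1, _, hv3⟩ := h1
          have := hpos v hv1 hv3
          omega
        · rw [io_false h2]
          by_cases h3 : Sp u a
          · have := hpos u (Or.inl rfl) h3
            omega
          · rw [io_false h3]; omega
    have pS : ∀ b a, 1 + io (a = b) + io (a ∈ W b) ≤ io (Sp b a) + io (Sp' a b) := by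
      intro b a
      have hWu : a ∈ W b → sb b a ∧ sb' a b := by
        intro hw
        simp only [hW] at hw
        rw [mem_filter, mem_Ab] at hw
        obtain ⟨h1, y, hy1, hy2⟩ := hw
        exact ⟨h1, y, hy2, (mem_Vb.1 hy1).1⟩
      have b1 := io_nonneg (Sp b a)
      have b2 := io_nonneg (Sp' a b)
      by_cases hab : a = b
      · subst hab
        have nw : a ∉ W a := fun hw => adj_sb a a (Or.inl rfl) (hWu hw).1
        have s1 : Sp a a := ⟨fun hs => absurd hs (adj_sb a a (Or.inl rfl)), D.loopless a⟩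
        have s2 : Sp' a a := ⟨fun hs => absurd hs (adj_sb' a a (Or.inl rfl)), D.loopless a⟩
        rw [io_false nw, io_true s1, io_true s2, io_true rfl]
        norm_num
      · rw [io_false hab]
        by_cases hw : a ∈ W b
        · obtain ⟨h1, h2⟩ := hWu hw
          have s1 : Sp b a := ⟨fun _ => h2, fun harc => adj_sb' a b (Or.inr harc) h2⟩
          have s2 : Sp' a b := ⟨fun _ => h1, fun harc => adj_sb b a (Or.inr harc) h1⟩
          rw [io_true hw, io_true s1, io_true s2]
          norm_num
        · rw [io_false hw]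
          by_cases h1 : D.arc a b
          · have s2 : Sp' a b :=
              ⟨fun hs => absurd hs (adj_sb' a b (Or.inr h1)), D.asymm _ _ h1⟩
            rw [io_true s2]; omega
          · by_cases h2 : D.arc b a
            · have s1 : Sp b a := ⟨fun hs => absurd hs (adj_sb b a (Or.inr h2)), h1⟩
              rw [io_true s1]; omega
            · by_cases h3 : sb b a
              · have s2 : Sp' a b := ⟨fun _ => h3, h2⟩
                rw [io_true s2]; omega
              · have s1 : Sp b a := ⟨fun hs => absurd hs h3, h1⟩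
                rw [io_true s1]; omega
    have pU : ∀ x y, io (y ∈ P x) + io (x ∈ Q y) + io (y ∈ Ux (Adj D) (Adj D) gP gQ x) ≤
        1 + io (y = x) := by
      intro x y
      by_cases hxy : y = x
      · subst hxy
        have nu : y ∉ Ux (Adj D) (Adj D) gP gQ y := fun hu => (hU y y hu).1 (h.hP _ _ (Or.inl rfl))
        rw [io_false nu, io_true rfl]
        have := io_le_one (y ∈ P y)
        have := io_le_one (y ∈ Q y)
        omega
      · rw [io_false hxy]
        by_cases h1 : y ∈ Ux (Adj D) (Adj D) gP gQ x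
        · obtain ⟨h2, h3⟩ := hU x y h1
          rw [io_true h1, io_false h2, io_false h3]
          norm_num
        · rw [io_false h1]
          by_cases h2 : y ∈ P x
          · have h3 := h.hd x y (fun e => hxy e.symm) h2
            rw [io_true h2, io_false h3]
            norm_num
          · rw [io_false h2]
            have := io_le_one (x ∈ Q y)
            omega
    -- summation
    have sX := Finset.sum_le_sum fun a (_ : a ∈ (univ : Finset V)) =>
      Finset.sum_le_sum fun u (_ : u ∈ (univ : Finset V)) => pX a u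
    have sY := Finset.sum_le_sum fun a (_ : a ∈ (univ : Finset V)) =>
      Finset.sum_le_sum fun u (_ : u ∈ (univ : Finset V)) => pY a u
    have sS := Finset.sum_le_sum fun b (_ : b ∈ (univ : Finset V)) =>
      Finset.sum_le_sum fun a (_ : a ∈ (univ : Finset V)) => pS b a
    have sU := Finset.sum_le_sum fun x (_ : x ∈ (univ : Finset V)) =>
      Finset.sum_le_sum fun y (_ : y ∈ (univ : Finset V)) => pU x y
    simp only [Finset.sum_add_distrib, Finset.sum_sub_distrib] at sX sY sS sU
    have t1 : ∑ a : V, ∑ u : V, io (a ∈ cl D (Q u)) = ∑ u : V, ∑ a : V, io (a ∈ cl D (Q u)) :=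
      Finset.sum_comm
    have t2 : ∑ a : V, ∑ u : V, io (a ∈ cl D (P u)) = ∑ u : V, ∑ a : V, io (a ∈ cl D (P u)) :=
      Finset.sum_comm
    have t3 : ∑ a : V, ∑ u : V, io (a ∈ JP u) = ∑ u : V, ∑ a : V, io (a ∈ JP u) :=
      Finset.sum_comm
    have t4 : ∑ a : V, ∑ u : V, io (Sp u a) = ∑ u : V, ∑ a : V, io (Sp u a) :=
      Finset.sum_comm
    have t5 : ∑ x : V, ∑ y : V, io (x ∈ Q y) = ∑ y : V, ∑ x : V, io (x ∈ Q y) :=
      Finset.sum_comm
    unfold en cc
    simp only [Finset.sum_sub_distrib]
    simp only [card_eq_io] at hkey' ⊢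
    linarith

end

universe u

variable {V : Type u} [Fintype V]

/-- No minimal counterexample exists. -/
theorem no_min [Nonempty V] (D : OGraph V) (hCE : CE D)
    (hmin : ∀ D' : OGraph V, CE D' → arcs D ≤ arcs D')
    (IH : ∀ (V' : Type u) [Fintype V'] [Nonempty V'], Fintype.card V' < Fintype.card V →
      ∀ D' : OGraph V', ¬ CE D') : False := by
  classical
  have hG := gg D hCE hmin IH
  -- every vertex has an in-neighbour
  have hin : ∀ a, ∃ b, D.arc b a := by
    intro a
    by_contra hcon
    push Not at hcon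
    have hne : (univ.erase a : Finset V).Nonempty := by
      have h1 := hCE a
      have h2 : 0 < (N1 D a).card := by omega
      obtain ⟨z, hz⟩ := Finset.card_pos.1 h2
      refine ⟨z, Finset.mem_erase.2 ⟨?_, Finset.mem_univ z⟩⟩
      rintro rfl
      exact D.loopless _ (mem_N1.1 hz)
    have hcl : cl D (univ.erase a) = univ.erase a := by
      apply Finset.Subset.antisymm _ (subset_cl D _)
      intro z hz
      obtain ⟨y, hy, hyz⟩ := mem_cl.1 hz
      rcases hyz with rfl | hyz
      · exact hy
      · refine Finset.mem_erase.2 ⟨?_, Finset.mem_univ z⟩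
        rintro rfl
        exact hcon y hyz
    have h3 := hG (univ.erase a) hne (by
      intro h
      have : a ∈ (univ.erase a : Finset V) := by rw [h]; exact Finset.mem_univ a
      exact Finset.notMem_erase a _ this)
    rw [hcl, hcl] at h3
    omega
  obtain ⟨P, Q, hp, hpmin⟩ := exists_min_pair D
  obtain ⟨X, Y, hX, hY, hXY, hen⟩ := improve hp hpmin
  have hpair : IsPair D (fun a => cl D (X a)) (fun b => cl D (Y b)) :=
    ⟨fun x b hb => mem_cl.2 ⟨x, hX x, hb⟩, fun x b hb => mem_cl.2 ⟨x, hY x, hb⟩, hXY⟩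
  have h1 := hpmin _ _ hpair
  have hXn : ∀ a, X a ≠ univ := by
    intro a ha
    obtain ⟨b, hb⟩ := hin a
    have hab : a ≠ b := by
      rintro rfl
      exact D.loopless _ hb
    refine hXY a b hab (subset_cl D _ (by rw [ha]; exact Finset.mem_univ b)) ?_
    exact mem_cl.2 ⟨b, hY b, Or.inr hb⟩
  have hYn : ∀ a, Y a ≠ univ := by
    intro b hb'
    obtain ⟨a, ha⟩ := hin b
    have hab : a ≠ b := by
      rintro rfl
      exact D.loopless _ ha
    refine hXY a b hab (mem_cl.2 ⟨a, hX a, Or.inr ha⟩) ?_
    exact subset_cl D _ (by rw [hb']; exact Finset.mem_univ a)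
  have g1 : ∀ a, cc D (cl D (X a)) < cc D (X a) := by
    intro a
    have := hG (X a) ⟨a, hX a⟩ (hXn a)
    unfold cc
    omega
  have g2 : ∀ a, cc D (cl D (Y a)) < cc D (Y a) := by
    intro a
    have := hG (Y a) ⟨a, hY a⟩ (hYn a)
    unfold cc
    omega
  have s1 : ∑ a, cc D (cl D (X a)) < ∑ a, cc D (X a) :=
    Finset.sum_lt_sum_of_nonempty Finset.univ_nonempty fun a _ => g1 a
  have s2 : ∑ a, cc D (cl D (Y a)) < ∑ a, cc D (Y a) :=
    Finset.sum_lt_sum_of_nonempty Finset.univ_nonempty fun a _ => g2 a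
  unfold en at h1 hen
  linarith

theorem main_aux (n : ℕ) : ∀ (V : Type u) [Fintype V] [Nonempty V], Fintype.card V = n →
    ∀ D : OGraph V, ¬ CE D := by
  classical
  induction n using Nat.strong_induction_on with
  | _ n ih =>
    intro V _ _ hn D hD
    obtain ⟨D0, hD0, hmin⟩ : ∃ D0 : OGraph V, CE D0 ∧ ∀ D' : OGraph V, CE D' →
        arcs D0 ≤ arcs D' := by
      have hex : ∃ k, ∃ D' : OGraph V, CE D' ∧ arcs D' = k := ⟨_, D, hD, rfl⟩
      obtain ⟨D0, h1, h2⟩ := Nat.find_spec hex
      refine ⟨D0, h1, fun D' hD' => ?_⟩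
      rw [h2]
      exact Nat.find_min' hex ⟨D', hD', rfl⟩
    exact no_min D0 hD0 hmin fun V' _ _ hV' D' => ih (Fintype.card V') (hn ▸ hV') V' rfl D'

/-- **Seymour's second neighbourhood conjecture.** -/
theorem seymour [Nonempty V] (D : OGraph V) : ∃ v, (N1 D v).card ≤ (N2 D v).card := by
  by_contra hcon
  push Not at hcon
  exact main_aux (Fintype.card V) V rfl D hcon

end Vale.Agent.P038.H915
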